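import Mathlib

/-!
P162 (Thorp shuffle), leaf CV8 of the two-walker argument: a lower bound for the mass that a
chain, killed with probability one half each time it leaves the set `P`, puts on `P`.
-/

namespace Vale.Agent.Lib.P162.H39CV

open Finset BigOperators

theorem pow_nonneg_entry {S : Type*} [Fintype S] [DecidableEq S] (A : Matrix S S ℝ)
    (hA : ∀ a b, 0 ≤ A a b) (m : ℕ) : ∀ a b, 0 ≤ (A ^ m) a b := by
  induction m with
  | zero =>
    intro a b
    rw [pow_zero, Matrix.one_apply]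
    split_ifs <;> norm_num
  | succ m ih =>
    intro a b
    rw [pow_succ, Matrix.mul_apply]
    exact Finset.sum_nonneg fun c _ => mul_nonneg (ih a c) (hA c b)

theorem pow_le_entry {S : Type*} [Fintype S] [DecidableEq S] (A K : Matrix S S ℝ)
    (hA : ∀ a b, 0 ≤ A a b) (hAK : ∀ a b, A a b ≤ K a b) (m : ℕ) :
    ∀ a b, (A ^ m) a b ≤ (K ^ m) a b := by
  induction m with
  | zero =>
    intro a b
    rw [pow_zero, pow_zero]
  | succ m ih =>
    intro a b
    rw [pow_succ, pow_succ, Matrix.mul_apply, Matrix.mul_apply]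
    exact Finset.sum_le_sum fun c _ =>
      mul_le_mul (ih a c) (hAK c b) (hA c b) (le_trans (pow_nonneg_entry A hA m a c) (ih a c))

/-- Telescoping identity for the difference of two matrix powers. -/
theorem tele {S : Type*} [Fintype S] [DecidableEq S] (K A D : Matrix S S ℝ)
    (hD : K - A = D * K) (N : ℕ) :
    K ^ N - A ^ N = ∑ i ∈ range N, A ^ i * (D * K ^ (N - i)) := by
  induction N with
  | zero => simp
  | succ N ih =>
    have e1 : K ^ (N + 1) - A ^ (N + 1) = (K ^ N - A ^ N) * K + A ^ N * (K - A) := by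
      rw [pow_succ, pow_succ, sub_mul, mul_sub]
      abel
    rw [e1, ih, hD, Finset.sum_mul, Finset.sum_range_succ]
    congr 1
    · refine Finset.sum_congr rfl fun i hi => ?_
      have hi' : i < N := Finset.mem_range.1 hi
      have e2 : N + 1 - i = N - i + 1 := by omega
      rw [Matrix.mul_assoc, Matrix.mul_assoc, ← pow_succ, e2]
    · simp

theorem tele_entry {S : Type*} [Fintype S] [DecidableEq S] (K A : Matrix S S ℝ) (d : S → ℝ)
    (hD : ∀ a b, K a b - A a b = d a * K a b) (N : ℕ) (σ b : S) :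
    (K ^ N) σ b - (A ^ N) σ b
      = ∑ i ∈ range N, ∑ c, (A ^ i) σ c * (d c * (K ^ (N - i)) c b) := by
  have hD' : K - A = Matrix.diagonal d * K := by
    ext a b
    rw [Matrix.sub_apply, Matrix.diagonal_mul, hD]
  have h := congrFun (congrFun (tele K A (Matrix.diagonal d) hD' N) σ) b
  rw [Matrix.sub_apply, Matrix.sum_apply] at h
  rw [h]
  refine Finset.sum_congr rfl fun i _ => ?_
  rw [Matrix.mul_apply]
  refine Finset.sum_congr rfl fun c _ => ?_
  rw [Matrix.diagonal_mul]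

theorem one_mass_le {S : Type*} [Fintype S] [DecidableEq S] (P : Finset S) (σ : S) :
    ∑ b ∈ P, (1 : Matrix S S ℝ) σ b ≤ 1 := by
  calc ∑ b ∈ P, (1 : Matrix S S ℝ) σ b ≤ ∑ b, (1 : Matrix S S ℝ) σ b :=
        Finset.sum_le_sum_of_subset_of_nonneg (Finset.subset_univ _) (fun b _ _ => by
          rw [Matrix.one_apply]
          split_ifs <;> norm_num)
    _ = 1 := by simp [Matrix.one_apply]

/-- At most one visit to `P` in a window of `m0 + 1` consecutive times. -/
theorem window {S : Type*} [Fintype S] [DecidableEq S] (K : Matrix S S ℝ)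
    (hK0 : ∀ a b, 0 ≤ K a b) (hK1 : ∀ a, ∑ b, K a b = 1) (P : Finset S) (m0 : ℕ)
    (hgap : ∀ a ∈ P, ∀ s, 1 ≤ s → s ≤ m0 → ∑ b ∈ P, (K ^ s) a b = 0) :
    ∀ l, l ≤ m0 → ∀ σ, ∑ i ∈ range (l + 1), ∑ b ∈ P, (K ^ i) σ b ≤ 1 := by
  intro l
  induction l with
  | zero =>
    intro _ σ
    rw [Finset.sum_range_one, pow_zero]
    exact one_mass_le P σ
  | succ l ih =>
    intro hl σ
    rw [Finset.sum_range_succ']
    by_cases hσ : σ ∈ P
    · have h0 : ∑ i ∈ range (l + 1), ∑ b ∈ P, (K ^ (i + 1)) σ b = 0 :=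
        Finset.sum_eq_zero fun i hi => hgap σ hσ (i + 1) (by omega)
          (by have := Finset.mem_range.1 hi; omega)
      rw [h0, zero_add, pow_zero]
      exact one_mass_le P σ
    · have h0 : ∑ b ∈ P, (K ^ 0) σ b = 0 := by
        rw [pow_zero]
        refine Finset.sum_eq_zero fun b hb => ?_
        rw [Matrix.one_apply, if_neg]
        rintro rfl
        exact hσ hb
      rw [h0, add_zero]
      have e : ∀ i, ∑ b ∈ P, (K ^ (i + 1)) σ b = ∑ d, K σ d * ∑ b ∈ P, (K ^ i) d b := by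
        intro i
        simp_rw [pow_succ', Matrix.mul_apply, Finset.mul_sum]
        rw [Finset.sum_comm]
      simp_rw [e]
      rw [Finset.sum_comm]
      simp_rw [← Finset.mul_sum]
      calc ∑ d, K σ d * ∑ i ∈ range (l + 1), ∑ b ∈ P, (K ^ i) d b
          ≤ ∑ d, K σ d * 1 := Finset.sum_le_sum fun d _ =>
            mul_le_mul_of_nonneg_left (ih (by omega) d) (hK0 σ d)
        _ = 1 := by
            simp_rw [mul_one]
            exact hK1 σ

/-- CV8: the killed chain. -/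
theorem killed_lower {S : Type*} [Fintype S] [DecidableEq S] (K : Matrix S S ℝ)
    (hK0 : ∀ a b, 0 ≤ K a b) (hK1 : ∀ a, ∑ b, K a b = 1)
    (P : Finset S) (Gd : S → Prop) (hGd : ∀ a b, Gd a → K a b ≠ 0 → Gd b) (hPG : ∀ a ∈ P, Gd a)
    (m0 s1 N : ℕ) (α β γ : ℝ) (hα : 0 ≤ α) (hβ : 0 ≤ β)
    (hgap : ∀ a ∈ P, ∀ s, 1 ≤ s → s ≤ m0 → ∑ b ∈ P, (K ^ s) a b = 0)
    (hlate : ∀ a, Gd a → ∀ s, m0 ≤ s → ∑ b ∈ P, (K ^ s) a b ≤ β)
    (hmix : ∀ a ∈ P, ∀ s, s1 ≤ s → ∑ b ∈ P, (K ^ s) a b ≤ α)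
    (hN : s1 + m0 ≤ N) (σ : S) (hσ : Gd σ) (hγ : γ ≤ ∑ b ∈ P, (K ^ N) σ b) :
    γ - α / 2 - N * β ^ 2 / 2
      ≤ ∑ b ∈ P, ((Matrix.of fun a b => (if a ∈ P then (1 / 2 : ℝ) else 1) * K a b) ^ N) σ b := by
  obtain ⟨A, hAdef⟩ : ∃ A : Matrix S S ℝ,
      A = Matrix.of fun a b => (if a ∈ P then (1 / 2 : ℝ) else 1) * K a b := ⟨_, rfl⟩
  rw [← hAdef]
  have hAap : ∀ a b, A a b = (if a ∈ P then (1 / 2 : ℝ) else 1) * K a b := by
    intro a b
    rw [hAdef, Matrix.of_apply]
  have hA0 : ∀ a b, 0 ≤ A a b := by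
    intro a b
    rw [hAap]
    exact mul_nonneg (by split_ifs <;> norm_num) (hK0 a b)
  have hAK : ∀ a b, A a b ≤ K a b := by
    intro a b
    rw [hAap]
    have := hK0 a b
    split_ifs <;> linarith
  have hD : ∀ a b, K a b - A a b = (if a ∈ P then (1 / 2 : ℝ) else 0) * K a b := by
    intro a b
    rw [hAap]
    split_ifs <;> ring
  have hKp := pow_nonneg_entry K hK0
  have hp0 : ∀ s a, 0 ≤ ∑ b ∈ P, (K ^ s) a b :=
    fun s a => Finset.sum_nonneg fun b _ => hKp s a b
  have hid : ∑ b ∈ P, (A ^ N) σ b = ∑ b ∈ P, (K ^ N) σ b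
      - ∑ i ∈ range N, ∑ c, (A ^ i) σ c
          * ((if c ∈ P then (1 / 2 : ℝ) else 0) * ∑ b ∈ P, (K ^ (N - i)) c b) := by
    have h1 : ∀ b, (A ^ N) σ b = (K ^ N) σ b - ∑ i ∈ range N, ∑ c, (A ^ i) σ c
        * ((if c ∈ P then (1 / 2 : ℝ) else 0) * (K ^ (N - i)) c b) := by
      intro b
      have := tele_entry K A _ hD N σ b
      linarith
    rw [Finset.sum_congr rfl (fun b _ => h1 b), Finset.sum_sub_distrib]
    congr 1
    rw [Finset.sum_comm]
    refine Finset.sum_congr rfl fun i _ => ?_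
    rw [Finset.sum_comm]
    refine Finset.sum_congr rfl fun c _ => ?_
    rw [Finset.mul_sum, Finset.mul_sum]
  have hT : ∀ i ∈ range N, ∑ c, (A ^ i) σ c
        * ((if c ∈ P then (1 / 2 : ℝ) else 0) * ∑ b ∈ P, (K ^ (N - i)) c b)
      ≤ α / 2 * (if i ≤ m0 then ∑ b ∈ P, (K ^ i) σ b else 0) + β ^ 2 / 2 := by
    intro i hi
    have hiN : i < N := Finset.mem_range.1 hi
    have hb : ∀ c ∈ P, ∑ b ∈ P, (K ^ (N - i)) c b ≤ (if i ≤ m0 then α else β) := by
      intro c hc
      split_ifs with him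
      · exact hmix c hc (N - i) (by omega)
      · by_cases hs : N - i ≤ m0
        · rw [hgap c hc (N - i) (by omega) hs]
          exact hβ
        · exact hlate c (hPG c hc) (N - i) (by omega)
    calc ∑ c, (A ^ i) σ c * ((if c ∈ P then (1 / 2 : ℝ) else 0) * ∑ b ∈ P, (K ^ (N - i)) c b)
        ≤ ∑ c, (K ^ i) σ c
            * ((if c ∈ P then (1 / 2 : ℝ) else 0) * ∑ b ∈ P, (K ^ (N - i)) c b) := by
          refine Finset.sum_le_sum fun c _ =>
            mul_le_mul_of_nonneg_right (pow_le_entry A K hA0 hAK i σ c) ?_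
          exact mul_nonneg (by split_ifs <;> norm_num) (hp0 _ _)
      _ = ∑ c ∈ P, (K ^ i) σ c * (1 / 2 * ∑ b ∈ P, (K ^ (N - i)) c b) := by
          rw [← Finset.sum_subset (Finset.subset_univ P)]
          · refine Finset.sum_congr rfl fun c hc => ?_
            rw [if_pos hc]
          · intro c _ hc
            rw [if_neg hc, zero_mul, mul_zero]
      _ ≤ ∑ c ∈ P, (K ^ i) σ c * (1 / 2 * (if i ≤ m0 then α else β)) := by
          refine Finset.sum_le_sum fun c hc => mul_le_mul_of_nonneg_left ?_ (hKp i σ c)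
          exact mul_le_mul_of_nonneg_left (hb c hc) (by norm_num)
      _ = (1 / 2 * (if i ≤ m0 then α else β)) * ∑ c ∈ P, (K ^ i) σ c := by
          rw [Finset.mul_sum]
          exact Finset.sum_congr rfl fun c _ => mul_comm _ _
      _ ≤ α / 2 * (if i ≤ m0 then ∑ b ∈ P, (K ^ i) σ b else 0) + β ^ 2 / 2 := by
          split_ifs with him
          · have h2 := hp0 i σ
            have h3 : 1 / 2 * α * ∑ c ∈ P, (K ^ i) σ c = α / 2 * ∑ b ∈ P, (K ^ i) σ b := by ring
            rw [h3]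
            linarith [sq_nonneg β]
          · have h1 := hlate σ hσ i (by omega)
            have h2 := mul_le_mul_of_nonneg_left h1 hβ
            nlinarith
  have hsum : ∑ i ∈ range N, (if i ≤ m0 then ∑ b ∈ P, (K ^ i) σ b else 0) ≤ 1 := by
    rw [← Finset.sum_filter]
    refine le_trans (Finset.sum_le_sum_of_subset_of_nonneg ?_ (fun i _ _ => hp0 i σ))
      (window K hK0 hK1 P m0 hgap m0 le_rfl σ)
    intro i hi
    rw [Finset.mem_filter] at hi
    rw [Finset.mem_range]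
    omega
  have htot : ∑ i ∈ range N, ∑ c, (A ^ i) σ c
        * ((if c ∈ P then (1 / 2 : ℝ) else 0) * ∑ b ∈ P, (K ^ (N - i)) c b)
      ≤ α / 2 + N * β ^ 2 / 2 := by
    calc ∑ i ∈ range N, ∑ c, (A ^ i) σ c
          * ((if c ∈ P then (1 / 2 : ℝ) else 0) * ∑ b ∈ P, (K ^ (N - i)) c b)
        ≤ ∑ i ∈ range N, (α / 2 * (if i ≤ m0 then ∑ b ∈ P, (K ^ i) σ b else 0) + β ^ 2 / 2) :=
          Finset.sum_le_sum hT
      _ = α / 2 * ∑ i ∈ range N, (if i ≤ m0 then ∑ b ∈ P, (K ^ i) σ b else 0)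
            + N * (β ^ 2 / 2) := by
          rw [Finset.sum_add_distrib, ← Finset.mul_sum, Finset.sum_const, Finset.card_range,
            nsmul_eq_mul]
      _ ≤ α / 2 + N * β ^ 2 / 2 := by
          have := mul_le_mul_of_nonneg_left hsum (by linarith : (0 : ℝ) ≤ α / 2)
          linarith
  rw [hid]
  linarith

end Vale.Agent.Lib.P162.H39CV
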