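import Mathlib
import Vale.Agent.Lib.P162.Defs
import Vale.Agent.Lib.P162.Law
import Vale.Agent.Lib.P162.helper5.LumpPair
import Vale.Agent.Lib.P162.helper61.PartnerGap
import Vale.Agent.Lib.P162.helper57.Assembly
import Vale.Agent.Lib.P162.helper63.RMain

/-!
P162 (Thorp shuffle), leaves CV9 of the two-walker argument: the first two of `j + 2` tracked
cards evolve as the 2-card chain, so the landed facts about the 2-card chain (no second meeting
of partners for `log₂ h` steps, partner mass at most `2 ^ (-m)`, closeness to uniform after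
`6 L` steps) transfer to the partner mass of the `(j+2)`-card chain.
-/

namespace Vale.Agent.Lib.P162.H39CV

open Finset BigOperators

/-- The partner mass of the `(j+2)`-card chain is the partner mass of the 2-card chain of its
first two cards. -/
theorem pp_lump (h j : ℕ) [NeZero h] (u : Fin (j + 2) → ZMod (2 * h)) (s : ℕ) :
    ∑ y ∈ univ.filter (fun y : Fin (j + 2) → ZMod (2 * h) => y 1 = y 0 + (h : ZMod (2 * h))),
        (Kmat h (j + 2) ^ s) u y
      = ∑ w ∈ univ.filter (fun w : Fin 2 → ZMod (2 * h) => w 1 = w 0 + (h : ZMod (2 * h))),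
        (Kmat h 2 ^ s) ![u 0, u 1] w := by
  have h01 : (0 : Fin (j + 2)) ≠ 1 := by
    intro hc
    exact absurd (congrArg Fin.val hc) (by simp)
  have e : ∀ w ∈ univ.filter (fun w : Fin 2 → ZMod (2 * h) => w 1 = w 0 + (h : ZMod (2 * h))),
      (Kmat h 2 ^ s) ![u 0, u 1] w
        = ∑ y ∈ (univ.filter (fun y : Fin (j + 2) → ZMod (2 * h) =>
              y 1 = y 0 + (h : ZMod (2 * h)))).filter
            (fun y => (![y 0, y 1] : Fin 2 → ZMod (2 * h)) = w), (Kmat h (j + 2) ^ s) u y := by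
    intro w hw
    rw [Finset.mem_filter] at hw
    rw [← H5.lump_pair h (j + 2) u 0 1 h01 s w]
    refine Finset.sum_congr ?_ fun _ _ => rfl
    ext y
    simp only [Finset.mem_filter, Finset.mem_univ, true_and]
    constructor
    · rintro ⟨h0, h1⟩
      refine ⟨?_, (H5.pair_eq_iff _ _ _).2 ⟨h0, h1⟩⟩
      rw [h0, h1]
      exact hw.2
    · rintro ⟨_, hy⟩
      exact (H5.pair_eq_iff _ _ _).1 hy
  rw [Finset.sum_congr rfl e]
  exact (Finset.sum_fiberwise_of_maps_to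
    (g := fun y : Fin (j + 2) → ZMod (2 * h) => (![y 0, y 1] : Fin 2 → ZMod (2 * h)))
    (fun y hy => by
      rw [Finset.mem_filter] at hy ⊢
      exact ⟨Finset.mem_univ _, by simpa using hy.2⟩) _).symm

/-- CV9 (gap). -/
theorem pp_gap (h j : ℕ) [NeZero h] (u : Fin (j + 2) → ZMod (2 * h))
    (hu : u 1 = u 0 + (h : ZMod (2 * h))) (s : ℕ) (hs1 : 1 ≤ s) (hs : 2 ^ s ≤ h) :
    ∑ y ∈ univ.filter (fun y : Fin (j + 2) → ZMod (2 * h) => y 1 = y 0 + (h : ZMod (2 * h))),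
      (Kmat h (j + 2) ^ s) u y = 0 := by
  rw [pp_lump]
  refine Finset.sum_eq_zero fun w hw => ?_
  rw [Finset.mem_filter] at hw
  exact H61.partner_gap h s hs1 hs ![u 0, u 1] w (by simpa using hu) hw.2

/-- CV9 (late). -/
theorem pp_upper (h j : ℕ) [NeZero h] (u : Fin (j + 2) → ZMod (2 * h)) (hu : u 0 ≠ u 1)
    (m s : ℕ) (hm : 2 ^ m ≤ h) (hs : m ≤ s) :
    ∑ y ∈ univ.filter (fun y : Fin (j + 2) → ZMod (2 * h) => y 1 = y 0 + (h : ZMod (2 * h))),
      (Kmat h (j + 2) ^ s) u y ≤ 1 / 2 ^ m := by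
  rw [pp_lump]
  exact H57.pair_partner h ![u 0, u 1] (by simpa using hu) m s hm hs

theorem h_ne_zero (h : ℕ) [NeZero h] : (h : ZMod (2 * h)) ≠ 0 := by
  intro hz
  rw [ZMod.natCast_eq_zero_iff] at hz
  have hpos : 0 < h := Nat.pos_of_ne_zero (NeZero.ne h)
  have := Nat.le_of_dvd hpos hz
  omega

theorem pair_inj (h : ℕ) (a b : ZMod (2 * h)) (hab : a ≠ b) :
    Function.Injective (![a, b] : Fin 2 → ZMod (2 * h)) := by
  intro i i' hi
  fin_cases i <;> fin_cases i'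
  · rfl
  · exact absurd (by simpa using hi) hab
  · exact absurd (by simpa using hi.symm) hab
  · rfl

theorem partner_inj (h : ℕ) [NeZero h] (w : Fin 2 → ZMod (2 * h))
    (hw : w 1 = w 0 + (h : ZMod (2 * h))) : Function.Injective w := by
  have hne : w 0 ≠ w 1 := by
    intro hc
    rw [hw] at hc
    exact h_ne_zero h (by simpa using hc.symm)
  have e : w = ![w 0, w 1] := ((H5.pair_eq_iff _ _ _).2 ⟨rfl, rfl⟩).symm
  rw [e]
  exact pair_inj h _ _ hne

theorem partner_card (h : ℕ) [NeZero h] :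
    (univ.filter (fun w : Fin 2 → ZMod (2 * h) => w 1 = w 0 + (h : ZMod (2 * h)))).card
      = 2 * h := by
  have e : univ.filter (fun w : Fin 2 → ZMod (2 * h) => w 1 = w 0 + (h : ZMod (2 * h)))
      = univ.image (fun a : ZMod (2 * h) =>
          (![a, a + (h : ZMod (2 * h))] : Fin 2 → ZMod (2 * h))) := by
    ext w
    simp only [Finset.mem_filter, Finset.mem_univ, true_and, Finset.mem_image]
    constructor
    · intro hw
      exact ⟨w 0, (H5.pair_eq_iff _ _ _).2 ⟨rfl, hw.symm⟩⟩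
    · rintro ⟨a, rfl⟩
      simp
  rw [e, Finset.card_image_of_injective, Finset.card_univ, ZMod.card]
  intro a b hab
  have := congrFun hab 0
  simpa using this

/-- The uniform law on placements of two distinct cards gives mass `1 / (2h - 1)` to the
partner pairs. -/
theorem unif_partner (h : ℕ) [NeZero h] :
    ∑ w ∈ univ.filter (fun w : Fin 2 → ZMod (2 * h) => w 1 = w 0 + (h : ZMod (2 * h))),
        unifInj h 2 w = 1 / ((2 * h : ℝ) - 1) := by
  have hpos : 0 < h := Nat.pos_of_ne_zero (NeZero.ne h)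
  have hposR : (1 : ℝ) ≤ h := by exact_mod_cast hpos
  have e : ∀ w ∈ univ.filter (fun w : Fin 2 → ZMod (2 * h) => w 1 = w 0 + (h : ZMod (2 * h))),
      unifInj h 2 w = 1 / ((2 * h).descFactorial 2 : ℝ) := by
    intro w hw
    rw [Finset.mem_filter] at hw
    rw [defs_aux_unifInj, if_pos (partner_inj h w hw.2)]
  have hd : ((2 * h).descFactorial 2 : ℝ) = (2 * h : ℝ) * ((2 * h : ℝ) - 1) := by
    have e2 : (2 * h).descFactorial 2 = (2 * h - 1) * (2 * h) := by
      simp [Nat.descFactorial]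
    rw [e2]
    push_cast [Nat.cast_sub (by omega : 1 ≤ 2 * h)]
    ring
  rw [Finset.sum_congr rfl e, Finset.sum_const, nsmul_eq_mul, partner_card, hd]
  push_cast
  have h1 : (2 * (h : ℝ)) ≠ 0 := by linarith
  have h2 : (2 * (h : ℝ)) - 1 ≠ 0 := by linarith
  field_simp

/-- CV9 (mix). -/
theorem pp_mix (h j : ℕ) [NeZero h] (u : Fin (j + 2) → ZMod (2 * h)) (hu : u 0 ≠ u 1)
    (s : ℕ) (hs : 6 * Nat.clog 2 (2 * h) ≤ s) :
    |∑ y ∈ univ.filter (fun y : Fin (j + 2) → ZMod (2 * h) => y 1 = y 0 + (h : ZMod (2 * h))),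
      (Kmat h (j + 2) ^ s) u y - 1 / ((2 * h : ℝ) - 1)|
      ≤ 2592 * (Nat.clog 2 (2 * h) : ℝ) ^ 2 / (2 * h : ℝ) ^ 2 := by
  rw [pp_lump, ← unif_partner h, ← Finset.sum_sub_distrib]
  have hx : Function.Injective (![u 0, u 1] : Fin 2 → ZMod (2 * h)) := pair_inj h _ _ hu
  have hk := H63R.kcard_r_all h 2 2 (by norm_num) ![u 0, u 1] hx s (by omega)
  have e : ∀ y, trackedLaw h 2 s ![u 0, u 1] y = (Kmat h 2 ^ s) ![u 0, u 1] y :=
    fun y => H6.law_eq_pow h 2 s _ y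
  rw [Finset.sum_congr rfl (fun y _ => by rw [e y])] at hk
  have hk2 : ∑ y, |(Kmat h 2 ^ s) ![u 0, u 1] y - unifInj h 2 y|
      ≤ 2592 * (Nat.clog 2 (2 * h) : ℝ) ^ 2 / (2 * h : ℝ) ^ 2 := by
    have e3 : (((2 : ℕ) : ℝ)) / 2 * (18 * ((2 : ℕ) : ℝ) * (Nat.clog 2 (2 * h) : ℝ)
        / (2 * h : ℝ)) ^ 2 = 1296 * (Nat.clog 2 (2 * h) : ℝ) ^ 2 / (2 * h : ℝ) ^ 2 := by
      push_cast
      ring
    rw [e3] at hk
    have e4 : 2592 * (Nat.clog 2 (2 * h) : ℝ) ^ 2 / (2 * h : ℝ) ^ 2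
        = 2 * (1296 * (Nat.clog 2 (2 * h) : ℝ) ^ 2 / (2 * h : ℝ) ^ 2) := by ring
    rw [e4]
    linarith
  calc |∑ w ∈ univ.filter (fun w : Fin 2 → ZMod (2 * h) => w 1 = w 0 + (h : ZMod (2 * h))),
          ((Kmat h 2 ^ s) ![u 0, u 1] w - unifInj h 2 w)|
      ≤ ∑ w ∈ univ.filter (fun w : Fin 2 → ZMod (2 * h) => w 1 = w 0 + (h : ZMod (2 * h))),
          |(Kmat h 2 ^ s) ![u 0, u 1] w - unifInj h 2 w| := Finset.abs_sum_le_sum_abs _ _
    _ ≤ ∑ w, |(Kmat h 2 ^ s) ![u 0, u 1] w - unifInj h 2 w| :=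
        Finset.sum_le_sum_of_subset_of_nonneg (Finset.filter_subset _ _)
          (fun _ _ _ => abs_nonneg _)
    _ ≤ 2592 * (Nat.clog 2 (2 * h) : ℝ) ^ 2 / (2 * h : ℝ) ^ 2 := hk2

end Vale.Agent.Lib.P162.H39CV
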