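import Mathlib
import Vale.Agent.Lib.P162.Defs

/-!
# P162, job H: two tracked cards are rarely partners (hypothesis form)

`pair_partner_of` proves the bound of job H from the outputs of the jobs E1 (`move_injective`,
`cast_eq_iff`), F (`stepProb_free`, two cards), D (`Wmat_pow_le`) and C (`prodKernel_pow`, two
cards), which enter as hypotheses.
-/

namespace Vale.Agent.Lib.P162.H39

open Finset BigOperators Vale.Agent.Lib.P162

/-! ### generic facts about powers of nonnegative matrices -/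

theorem pow_entry_nonneg {S : Type*} [Fintype S] [DecidableEq S] (A : Matrix S S ℝ)
    (hA : ∀ z y, 0 ≤ A z y) (m : ℕ) : ∀ z y, 0 ≤ (A ^ m) z y := by
  induction m with
  | zero =>
    intro z y
    rw [pow_zero, Matrix.one_apply]
    split_ifs <;> norm_num
  | succ m ih =>
    intro z y
    rw [pow_succ, Matrix.mul_apply]
    exact Finset.sum_nonneg (fun u _ => mul_nonneg (ih z u) (hA u y))

theorem pow_row_sum {S : Type*} [Fintype S] [DecidableEq S] (A : Matrix S S ℝ)
    (hA1 : ∀ z, ∑ y, A z y = 1) (m : ℕ) : ∀ z, ∑ y, (A ^ m) z y = 1 := by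
  induction m with
  | zero =>
    intro z
    simp [Matrix.one_apply]
  | succ m ih =>
    intro z
    have e : ∀ y, (A ^ (m + 1)) z y = ∑ u, (A ^ m) z u * A u y := by
      intro y
      rw [pow_succ, Matrix.mul_apply]
    simp_rw [e]
    rw [Finset.sum_comm]
    simp_rw [← Finset.mul_sum, hA1, mul_one]
    exact ih z

/-! ### arithmetic of one shuffle -/

theorem two_mul_h (h : ℕ) : (2 : ZMod (2 * h)) * (h : ZMod (2 * h)) = 0 := by
  have := ZMod.natCast_self (2 * h)
  push_cast at this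
  exact this

/-- the bit appended by one shuffle -/
def bit (h : ℕ) (c : ZMod h → Bool) (p : ZMod (2 * h)) : ZMod (2 * h) :=
  if xor (decide (h ≤ p.val)) (c (ZMod.cast p)) then 1 else 0

theorem move_eq (h : ℕ) (c : ZMod h → Bool) (p : ZMod (2 * h)) :
    move h c p = 2 * p + bit h c p := rfl

theorem bit_cases (h : ℕ) (c : ZMod h → Bool) (p : ZMod (2 * h)) :
    bit h c p = 0 ∨ bit h c p = 1 := by
  unfold bit
  split_ifs
  · exact Or.inr rfl
  · exact Or.inl rfl

theorem val_add_h (h : ℕ) [NeZero h] (p : ZMod (2 * h)) :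
    (h ≤ (p + (h : ZMod (2 * h))).val) ↔ ¬ (h ≤ p.val) := by
  have hpos : 0 < h := Nat.pos_of_ne_zero (NeZero.ne h)
  have hp : p.val < 2 * h := ZMod.val_lt p
  have hh : ((h : ℕ) : ZMod (2 * h)).val = h := by
    rw [ZMod.val_natCast]
    exact Nat.mod_eq_of_lt (by omega)
  rw [ZMod.val_add, hh]
  by_cases hc : h ≤ p.val
  · have e : (p.val + h) % (2 * h) = p.val - h := by
      rw [Nat.mod_eq_sub_mod (by omega)]
      rw [Nat.mod_eq_of_lt (by omega)]
      omega
    rw [e]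
    omega
  · have e : (p.val + h) % (2 * h) = p.val + h := Nat.mod_eq_of_lt (by omega)
    rw [e]
    omega

theorem bit_partner (h : ℕ) [NeZero h]
    (hcast : ∀ u v : ZMod (2 * h),
      (ZMod.cast u : ZMod h) = ZMod.cast v ↔ v = u ∨ v = u + (h : ZMod (2 * h)))
    (c : ZMod h → Bool) (p : ZMod (2 * h)) :
    (bit h c p = 0 ∧ bit h c (p + (h : ZMod (2 * h))) = 1) ∨
      (bit h c p = 1 ∧ bit h c (p + (h : ZMod (2 * h))) = 0) := by
  have hc : (ZMod.cast (p + (h : ZMod (2 * h))) : ZMod h) = ZMod.cast p :=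
    ((hcast p (p + h)).2 (Or.inr rfl)).symm
  have hv := val_add_h h p
  unfold bit
  rw [hc]
  by_cases h1 : h ≤ p.val
  · have h2 : ¬ (h ≤ (p + (h : ZMod (2 * h))).val) := fun hx => (hv.1 hx) h1
    cases hcp : c (ZMod.cast p) <;> simp [h1, h2]
  · have h2 : h ≤ (p + (h : ZMod (2 * h))).val := hv.2 h1
    cases hcp : c (ZMod.cast p) <;> simp [h1, h2]

/-- the two positions differ by a number in `[1, N)`, in one of the two directions -/
def CloseLt (h N : ℕ) (w : Fin 2 → ZMod (2 * h)) : Prop :=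
  ∃ j : ℕ, 1 ≤ j ∧ j < N ∧
    (w 1 - w 0 = (j : ZMod (2 * h)) ∨ w 0 - w 1 = (j : ZMod (2 * h)))

theorem closeLt_step (h N : ℕ) (c : ZMod h → Bool) (w v : Fin 2 → ZMod (2 * h))
    (hv : ∀ j, move h c (w j) = v j) (hw : CloseLt h N w) : CloseLt h (2 * N) v := by
  obtain ⟨j, hj1, hjN, hd⟩ := hw
  obtain ⟨j0, rfl⟩ : ∃ j0, j = j0 + 1 := ⟨j - 1, by omega⟩
  have h0 := hv 0
  have h1 := hv 1
  rw [move_eq] at h0 h1
  push_cast at hd
  rcases bit_cases h c (w 0) with b0 | b0 <;> rcases bit_cases h c (w 1) with b1 | b1 <;>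
    rw [b0] at h0 <;> rw [b1] at h1 <;> rcases hd with hd | hd
  all_goals first
    | exact ⟨2 * (j0 + 1), by omega, by omega,
        Or.inl (by rw [← h0, ← h1]; push_cast; linear_combination 2 * hd)⟩
    | exact ⟨2 * (j0 + 1), by omega, by omega,
        Or.inr (by rw [← h0, ← h1]; push_cast; linear_combination 2 * hd)⟩
    | exact ⟨2 * (j0 + 1) + 1, by omega, by omega,
        Or.inl (by rw [← h0, ← h1]; push_cast; linear_combination 2 * hd)⟩
    | exact ⟨2 * (j0 + 1) + 1, by omega, by omega,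
        Or.inr (by rw [← h0, ← h1]; push_cast; linear_combination 2 * hd)⟩
    | exact ⟨2 * j0 + 1, by omega, by omega,
        Or.inl (by rw [← h0, ← h1]; push_cast; linear_combination 2 * hd)⟩
    | exact ⟨2 * j0 + 1, by omega, by omega,
        Or.inr (by rw [← h0, ← h1]; push_cast; linear_combination 2 * hd)⟩

theorem closeLt_of_partner (h : ℕ) [NeZero h]
    (hcast : ∀ u v : ZMod (2 * h),
      (ZMod.cast u : ZMod h) = ZMod.cast v ↔ v = u ∨ v = u + (h : ZMod (2 * h)))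
    (c : ZMod h → Bool) (w v : Fin 2 → ZMod (2 * h))
    (hv : ∀ j, move h c (w j) = v j) (hw : w 1 = w 0 + (h : ZMod (2 * h))) :
    CloseLt h 2 v := by
  have h0 := hv 0
  have h1 := hv 1
  rw [move_eq] at h0 h1
  rw [hw] at h1
  have t := two_mul_h h
  rcases bit_partner h hcast c (w 0) with ⟨b0, b1⟩ | ⟨b0, b1⟩
  · rw [b0] at h0
    rw [b1] at h1
    refine ⟨1, le_refl 1, by norm_num, Or.inl ?_⟩
    rw [← h0, ← h1]
    push_cast
    linear_combination t
  · rw [b0] at h0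
    rw [b1] at h1
    refine ⟨1, le_refl 1, by norm_num, Or.inr ?_⟩
    rw [← h0, ← h1]
    push_cast
    linear_combination -t

theorem closeLt_not_par (h N : ℕ) [NeZero h] (hN : N ≤ h) (w : Fin 2 → ZMod (2 * h))
    (hw : CloseLt h N w) : w 0 ≠ w 1 ∧ w 1 ≠ w 0 + (h : ZMod (2 * h)) := by
  obtain ⟨j, hj1, hjN, hd⟩ := hw
  have hpos : 0 < h := Nat.pos_of_ne_zero (NeZero.ne h)
  have t := two_mul_h h
  have hj0 : (j : ZMod (2 * h)) ≠ 0 := by
    intro hz
    rw [ZMod.natCast_eq_zero_iff] at hz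
    have := Nat.le_of_dvd (by omega) hz
    omega
  have hjh : (j : ZMod (2 * h)) ≠ (h : ZMod (2 * h)) := by
    intro hz
    rw [ZMod.natCast_eq_natCast_iff'] at hz
    rw [Nat.mod_eq_of_lt (by omega), Nat.mod_eq_of_lt (by omega)] at hz
    omega
  constructor
  · intro he
    apply hj0
    rcases hd with hd | hd
    · linear_combination -hd - he
    · linear_combination -hd + he
  · intro he
    apply hjh
    rcases hd with hd | hd
    · linear_combination -hd + he
    · linear_combination -hd - he - t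

/-! ### the two-card kernel -/

theorem step_of_ne_zero (h : ℕ) [NeZero h] (w v : Fin 2 → ZMod (2 * h))
    (hne : Kmat h 2 w v ≠ 0) : ∃ c : ZMod h → Bool, ∀ j, move h c (w j) = v j := by
  by_contra hcon
  push Not at hcon
  apply hne
  have e : (univ.filter fun c : ZMod h → Bool => ∀ j, move h c (w j) = v j) = ∅ := by
    rw [Finset.filter_eq_empty_iff]
    intro c _ hc
    obtain ⟨j, hj⟩ := hcon c
    exact hj (hc j)
  show stepProb h 2 w v = 0
  unfold stepProb
  rw [e]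
  simp

theorem Kmat_nonneg (h k : ℕ) [NeZero h] (z y : Fin k → ZMod (2 * h)) : 0 ≤ Kmat h k z y := by
  show 0 ≤ stepProb h k z y
  unfold stepProb
  positivity

theorem Kmat_row_sum (h k : ℕ) [NeZero h] (z : Fin k → ZMod (2 * h)) :
    ∑ y, Kmat h k z y = 1 := by
  have hcard : ∑ y : Fin k → ZMod (2 * h),
      (univ.filter fun c : ZMod h → Bool => ∀ j, move h c (z j) = y j).card = 2 ^ h := by
    have h1 := Finset.card_eq_sum_card_fiberwise (s := (univ : Finset (ZMod h → Bool)))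
      (t := (univ : Finset (Fin k → ZMod (2 * h)))) (f := fun c j => move h c (z j))
      (fun c _ => Finset.mem_coe.2 (Finset.mem_univ _))
    have h2 : (univ : Finset (ZMod h → Bool)).card = 2 ^ h := by
      rw [Finset.card_univ, Fintype.card_fun, Fintype.card_bool, ZMod.card]
    rw [h2] at h1
    rw [h1]
    apply Finset.sum_congr rfl
    intro y _
    congr 1
    ext c
    simp only [Finset.mem_filter, Finset.mem_univ, true_and]
    constructor
    · intro hc
      funext j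
      exact hc j
    · intro hc j
      exact congrFun hc j
  show ∑ y, stepProb h k z y = 1
  unfold stepProb
  rw [← Finset.sum_div, ← Nat.cast_sum, hcard]
  have hne : (2 : ℝ) ^ h ≠ 0 := by positivity
  push_cast
  exact div_self hne

theorem not_bad (h : ℕ) [NeZero h]
    (hcast : ∀ u v : ZMod (2 * h),
      (ZMod.cast u : ZMod h) = ZMod.cast v ↔ v = u ∨ v = u + (h : ZMod (2 * h)))
    (u : Fin 2 → ZMod (2 * h)) (hu : u 0 ≠ u 1) (hp : u 1 ≠ u 0 + (h : ZMod (2 * h))) :
    ¬ bad h 2 u := by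
  have t := two_mul_h h
  have two : ∀ a : Fin 2, a = 0 ∨ a = 1 := by decide
  rintro ⟨j, j', hjj, hc⟩
  rw [hcast] at hc
  rcases two j with rfl | rfl <;> rcases two j' with rfl | rfl
  · exact hjj rfl
  · rcases hc with hc | hc
    · exact hu hc.symm
    · exact hp hc
  · rcases hc with hc | hc
    · exact hu hc
    · exact hp (by linear_combination -hc - t)
  · exact hjj rfl

/-- the partner states -/
abbrev Par (h : ℕ) [NeZero h] : Finset (Fin 2 → ZMod (2 * h)) :=
  univ.filter (fun w : Fin 2 → ZMod (2 * h) => w 1 = w 0 + (h : ZMod (2 * h)))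

theorem reach_close (h : ℕ) [NeZero h]
    (hcast : ∀ u v : ZMod (2 * h),
      (ZMod.cast u : ZMod h) = ZMod.cast v ↔ v = u ∨ v = u + (h : ZMod (2 * h)))
    (l : ℕ) : ∀ (u w : Fin 2 → ZMod (2 * h)), u 1 = u 0 + (h : ZMod (2 * h)) →
      (Kmat h 2 ^ (l + 1)) u w ≠ 0 → CloseLt h (2 ^ (l + 1)) w := by
  induction l with
  | zero =>
    intro u w hu hne
    rw [zero_add, pow_one] at hne
    obtain ⟨c, hc⟩ := step_of_ne_zero h u w hne
    have key := closeLt_of_partner h hcast c u w hc hu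
    have e : (2 : ℕ) ^ (0 + 1) = 2 := by norm_num
    rw [e]
    exact key
  | succ l ih =>
    intro u w hu hne
    rw [pow_succ, Matrix.mul_apply] at hne
    obtain ⟨v, _, hv⟩ := Finset.exists_ne_zero_of_sum_ne_zero hne
    have hv1 : (Kmat h 2 ^ (l + 1)) u v ≠ 0 := left_ne_zero_of_mul hv
    have hv2 : Kmat h 2 v w ≠ 0 := right_ne_zero_of_mul hv
    obtain ⟨c, hc⟩ := step_of_ne_zero h v w hv2
    have key := closeLt_step h (2 ^ (l + 1)) c v w hc (ih u v hu hv1)
    have e : (2 : ℕ) ^ (l + 1 + 1) = 2 * 2 ^ (l + 1) := by ring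
    rw [e]
    exact key

theorem offdiag_step (h : ℕ) [NeZero h] (hmove : ∀ c, Function.Injective (move h c))
    (u v : Fin 2 → ZMod (2 * h)) (hu : u 0 ≠ u 1) (hne : Kmat h 2 u v ≠ 0) : v 0 ≠ v 1 := by
  obtain ⟨c, hc⟩ := step_of_ne_zero h u v hne
  intro hv
  apply hu
  apply hmove c
  rw [hc 0, hc 1, hv]

theorem offdiag_pow (h : ℕ) [NeZero h] (hmove : ∀ c, Function.Injective (move h c)) (t : ℕ) :
    ∀ (u v : Fin 2 → ZMod (2 * h)), u 0 ≠ u 1 → (Kmat h 2 ^ t) u v ≠ 0 → v 0 ≠ v 1 := by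
  induction t with
  | zero =>
    intro u v hu hne
    rw [pow_zero, Matrix.one_apply] at hne
    have e : u = v := by
      by_contra hx
      exact hne (if_neg hx)
    rw [← e]
    exact hu
  | succ t ih =>
    intro u v hu hne
    rw [pow_succ, Matrix.mul_apply] at hne
    obtain ⟨x, _, hx⟩ := Finset.exists_ne_zero_of_sum_ne_zero hne
    exact offdiag_step h hmove x v (ih u x hu (left_ne_zero_of_mul hx)) (right_ne_zero_of_mul hx)

/-! ### the free kernel -/

theorem Wmat_nonneg (h : ℕ) [NeZero h] (p q : ZMod (2 * h)) : 0 ≤ Wmat h p q := by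
  show 0 ≤ (if q = 2 * p then (1 / 2 : ℝ) else 0) + (if q = 2 * p + 1 then (1 / 2 : ℝ) else 0)
  exact add_nonneg (by split_ifs <;> norm_num) (by split_ifs <;> norm_num)

theorem Wmat_row_sum (h : ℕ) [NeZero h] (p : ZMod (2 * h)) : ∑ q, Wmat h p q = 1 := by
  show ∑ q, ((if q = 2 * p then (1 / 2 : ℝ) else 0) + (if q = 2 * p + 1 then (1 / 2 : ℝ) else 0))
    = 1
  rw [Finset.sum_add_distrib, Finset.sum_ite_eq', Finset.sum_ite_eq']
  simp only [Finset.mem_univ, if_true]
  norm_num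

theorem Wk_nonneg (h : ℕ) [NeZero h] (z y : Fin 2 → ZMod (2 * h)) : 0 ≤ Wk h 2 z y := by
  show 0 ≤ ∏ j, Wmat h (z j) (y j)
  exact Finset.prod_nonneg (fun j _ => Wmat_nonneg h _ _)

theorem PW_le (h : ℕ) [NeZero h]
    (hWle : ∀ m : ℕ, 2 ^ m ≤ 2 * h → ∀ p y : ZMod (2 * h), (Wmat h ^ m) p y ≤ 1 / 2 ^ m)
    (hprod : ∀ (m : ℕ) (z y : Fin 2 → ZMod (2 * h)),
      (Wk h 2 ^ m) z y = ∏ j, (Wmat h ^ m) (z j) (y j))
    (r : ℕ) (hr : 2 ^ r ≤ 2 * h) (u : Fin 2 → ZMod (2 * h)) :
    ∑ w ∈ Par h, (Wk h 2 ^ r) u w ≤ 1 / 2 ^ r := by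
  have hnn : ∀ p y, 0 ≤ (Wmat h ^ r) p y := pow_entry_nonneg (Wmat h) (Wmat_nonneg h) r
  have h1 : ∑ w ∈ Par h, (Wk h 2 ^ r) u w
      ≤ ∑ w ∈ Par h, (Wmat h ^ r) (u 0) (w 0) * (1 / 2 ^ r) := by
    apply Finset.sum_le_sum
    intro w _
    rw [hprod, Fin.prod_univ_two]
    exact mul_le_mul_of_nonneg_left (hWle r hr _ _) (hnn _ _)
  have hinj : ∀ x ∈ Par h, ∀ y ∈ Par h, x 0 = y 0 → x = y := by
    intro x hx y hy hxy
    have hx1 : x 1 = x 0 + (h : ZMod (2 * h)) := (Finset.mem_filter.1 hx).2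
    have hy1 : y 1 = y 0 + (h : ZMod (2 * h)) := (Finset.mem_filter.1 hy).2
    funext j
    revert j
    rw [Fin.forall_fin_two]
    exact ⟨hxy, by rw [hx1, hy1, hxy]⟩
  have h2 : ∑ w ∈ Par h, (Wmat h ^ r) (u 0) (w 0) * (1 / 2 ^ r)
      = ∑ p ∈ (Par h).image (fun w => w 0), (Wmat h ^ r) (u 0) p * (1 / 2 ^ r) :=
    (Finset.sum_image (f := fun p => (Wmat h ^ r) (u 0) p * (1 / 2 ^ r)) hinj).symm
  have h3 : ∑ p ∈ (Par h).image (fun w => w 0), (Wmat h ^ r) (u 0) p * (1 / 2 ^ r)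
      ≤ ∑ p, (Wmat h ^ r) (u 0) p * (1 / 2 ^ r) :=
    Finset.sum_le_sum_of_subset_of_nonneg (Finset.subset_univ _)
      (fun p _ _ => mul_nonneg (hnn _ _) (by positivity))
  have h4 : ∑ p, (Wmat h ^ r) (u 0) p * (1 / 2 ^ r) = 1 / 2 ^ r := by
    rw [← Finset.sum_mul, pow_row_sum (Wmat h) (Wmat_row_sum h) r, one_mul]
  linarith

/-! ### comparison of the two-card chain with the free chain on the partner set -/

theorem claim (h : ℕ) [NeZero h] (hmove : ∀ c, Function.Injective (move h c))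
    (hcast : ∀ u v : ZMod (2 * h),
      (ZMod.cast u : ZMod h) = ZMod.cast v ↔ v = u ∨ v = u + (h : ZMod (2 * h)))
    (hfree : ∀ z y : Fin 2 → ZMod (2 * h), ¬ bad h 2 z → stepProb h 2 z y = Wk h 2 z y) :
    ∀ r : ℕ, 2 ^ r ≤ h → ∀ u : Fin 2 → ZMod (2 * h), u 0 ≠ u 1 →
      ∑ w ∈ Par h, (Kmat h 2 ^ r) u w ≤ ∑ w ∈ Par h, (Wk h 2 ^ r) u w := by
  intro r
  induction r with
  | zero =>
    intro _ u _
    simp
  | succ r ih =>
    intro hr u hu
    have hr' : 2 ^ r ≤ h :=
      le_trans (Nat.pow_le_pow_right (by norm_num) (Nat.le_succ r)) hr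
    by_cases hp : u 1 = u 0 + (h : ZMod (2 * h))
    · have hz : ∑ w ∈ Par h, (Kmat h 2 ^ (r + 1)) u w = 0 := by
        apply Finset.sum_eq_zero
        intro w hw
        by_contra hne
        have hcl := reach_close h hcast r u w hp hne
        exact (closeLt_not_par h (2 ^ (r + 1)) hr w hcl).2 (Finset.mem_filter.1 hw).2
      rw [hz]
      exact Finset.sum_nonneg
        (fun w _ => pow_entry_nonneg (Wk h 2) (Wk_nonneg h) (r + 1) u w)
    · have hnb : ¬ bad h 2 u := not_bad h hcast u hu hp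
      have hKW : ∀ v, Kmat h 2 u v = Wk h 2 u v := fun v => hfree u v hnb
      calc ∑ w ∈ Par h, (Kmat h 2 ^ (r + 1)) u w
          = ∑ w ∈ Par h, ∑ v, Kmat h 2 u v * (Kmat h 2 ^ r) v w := by
            apply Finset.sum_congr rfl
            intro w _
            rw [pow_succ', Matrix.mul_apply]
        _ = ∑ v, Kmat h 2 u v * ∑ w ∈ Par h, (Kmat h 2 ^ r) v w := by
            rw [Finset.sum_comm]
            apply Finset.sum_congr rfl
            intro v _
            rw [Finset.mul_sum]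
        _ ≤ ∑ v, Kmat h 2 u v * ∑ w ∈ Par h, (Wk h 2 ^ r) v w := by
            apply Finset.sum_le_sum
            intro v _
            by_cases hk : Kmat h 2 u v = 0
            · rw [hk, zero_mul, zero_mul]
            · exact mul_le_mul_of_nonneg_left (ih hr' v (offdiag_step h hmove u v hu hk))
                (Kmat_nonneg h 2 u v)
        _ = ∑ w ∈ Par h, ∑ v, Wk h 2 u v * (Wk h 2 ^ r) v w := by
            rw [Finset.sum_comm]
            apply Finset.sum_congr rfl
            intro v _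
            rw [Finset.mul_sum, hKW]
        _ = ∑ w ∈ Par h, (Wk h 2 ^ (r + 1)) u w := by
            apply Finset.sum_congr rfl
            intro w _
            rw [pow_succ', Matrix.mul_apply]

/-- **Job H, hypothesis form.** Two distinct tracked cards are partners (sit in positions `p` and
`p + h`) after `s ≥ m` Thorp shuffles with probability at most `2 ^ (-m)`, when `2 ^ m ≤ h`. -/
theorem pair_partner_of (h : ℕ) [NeZero h] (hmove : ∀ c, Function.Injective (move h c))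
    (hcast : ∀ u v : ZMod (2 * h),
      (ZMod.cast u : ZMod h) = ZMod.cast v ↔ v = u ∨ v = u + (h : ZMod (2 * h)))
    (hfree : ∀ z y : Fin 2 → ZMod (2 * h), ¬ bad h 2 z → stepProb h 2 z y = Wk h 2 z y)
    (hWle : ∀ m : ℕ, 2 ^ m ≤ 2 * h → ∀ p y : ZMod (2 * h), (Wmat h ^ m) p y ≤ 1 / 2 ^ m)
    (hprod : ∀ (m : ℕ) (z y : Fin 2 → ZMod (2 * h)),
      (Wk h 2 ^ m) z y = ∏ j, (Wmat h ^ m) (z j) (y j))
    (w0 : Fin 2 → ZMod (2 * h)) (hw : w0 0 ≠ w0 1)
    (m s : ℕ) (hm : 2 ^ m ≤ h) (hs : m ≤ s) :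
    ∑ w ∈ univ.filter (fun w : Fin 2 → ZMod (2 * h) => w 1 = w 0 + (h : ZMod (2 * h))),
        (Kmat h 2 ^ s) w0 w ≤ 1 / 2 ^ m := by
  obtain ⟨t, rfl⟩ : ∃ t, s = t + m := ⟨s - m, by omega⟩
  have hstep : ∀ u : Fin 2 → ZMod (2 * h), u 0 ≠ u 1 →
      ∑ w ∈ Par h, (Kmat h 2 ^ m) u w ≤ 1 / 2 ^ m := by
    intro u hu
    exact le_trans (claim h hmove hcast hfree m hm u hu)
      (PW_le h hWle hprod m (le_trans hm (by omega)) u)
  calc ∑ w ∈ Par h, (Kmat h 2 ^ (t + m)) w0 w
      = ∑ w ∈ Par h, ∑ u, (Kmat h 2 ^ t) w0 u * (Kmat h 2 ^ m) u w := by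
        apply Finset.sum_congr rfl
        intro w _
        rw [pow_add, Matrix.mul_apply]
    _ = ∑ u, (Kmat h 2 ^ t) w0 u * ∑ w ∈ Par h, (Kmat h 2 ^ m) u w := by
        rw [Finset.sum_comm]
        apply Finset.sum_congr rfl
        intro u _
        rw [Finset.mul_sum]
    _ ≤ ∑ u, (Kmat h 2 ^ t) w0 u * (1 / 2 ^ m) := by
        apply Finset.sum_le_sum
        intro u _
        by_cases hk : (Kmat h 2 ^ t) w0 u = 0
        · rw [hk, zero_mul, zero_mul]
        · exact mul_le_mul_of_nonneg_left (hstep u (offdiag_pow h hmove t w0 u hw hk))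
            (pow_entry_nonneg (Kmat h 2) (Kmat_nonneg h 2) t w0 u)
    _ = 1 / 2 ^ m := by
        rw [← Finset.sum_mul, pow_row_sum (Kmat h 2) (Kmat_row_sum h 2) t, one_mul]

/-- the partner-gap statement of job H1, from `cast_eq_iff` only -/
theorem partner_gap_of (h : ℕ) [NeZero h]
    (hcast : ∀ u v : ZMod (2 * h),
      (ZMod.cast u : ZMod h) = ZMod.cast v ↔ v = u ∨ v = u + (h : ZMod (2 * h)))
    (r : ℕ) (hr1 : 1 ≤ r) (hr : 2 ^ r ≤ h)
    (w v : Fin 2 → ZMod (2 * h)) (hw : w 1 = w 0 + (h : ZMod (2 * h)))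
    (hv : v 1 = v 0 + (h : ZMod (2 * h))) : (Kmat h 2 ^ r) w v = 0 := by
  obtain ⟨l, rfl⟩ : ∃ l, r = l + 1 := ⟨r - 1, by omega⟩
  by_contra hne
  have hcl := reach_close h hcast l w v hw hne
  exact (closeLt_not_par h (2 ^ (l + 1)) hr v hcl).2 hv

end Vale.Agent.Lib.P162.H39
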